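import Vale.Agent.P212H52.Rows

/-! The assembly map on the group of cycles modulo homotopy. -/

set_option linter.unusedSectionVars false

namespace Vale.Agent.P212H

open Vale.Agent.P212 Vale.Agent.P212.H268 Vale.Agent.P212Z ZeroAtInfty
open scoped ComplexOrder

/-- The local index of a cycle is a homotopy invariant. -/
structure HInv : Prop where
  out : ∀ {M Q B : Type} [Ring M] [Algebra ℂ M] [Ring Q] [NormedRing B] [NormedAlgebra ℂ B]
    [CompleteSpace B] {R : Rel M Q B} {A : Type} [NonUnitalCStarAlgebra A] {Y Θ : Type}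
    (C : Ctx R A Y Θ) (a b : Kas.Cyc A), Htpy a b → C.cyc (toOld a) = C.cyc (toOld b)

theorem htpy_family (hE : EVAL) {A : Type} [NonUnitalCStarAlgebra A] {a b : Kas.Cyc A}
    (h : Htpy a b) : ∃ (E : Type) (_ : NormedAddCommGroup E) (_ : NormedSpace ℂ E) (_ : SMul CI E)
      (_ : CStarModule CI E) (m : KMod CI E A) (c : unitInterval → Kas.Cyc A),
      (∀ t, EvalC m t (c t)) ∧ c 0 = a ∧ c 1 = b := by
  obtain @⟨H, K, _, _, _, _, _, _, a, b, E, _, _, _, _, m, ⟨π, h⟩, π', h'⟩ := h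
  have hex : ∀ t, ∃ c : Kas.Cyc A, EvalC m t c ∧ (t = 0 → c = ⟨H, a⟩) ∧ (t = 1 → c = ⟨K, b⟩) := by
    intro t
    by_cases h0 : t = 0
    · subst h0
      exact ⟨⟨H, a⟩, ⟨π, h⟩, fun _ => rfl, fun e => absurd e zero_ne_one⟩
    by_cases h1 : t = 1
    · subst h1
      exact ⟨⟨K, b⟩, ⟨π', h'⟩, fun e => absurd e h0, fun _ => rfl⟩
    obtain ⟨L, _, _, _, c, p, hc⟩ := (hE A E m t).1
    exact ⟨⟨L, c⟩, ⟨p, hc⟩, fun e => absurd e h0, fun e => absurd e h1⟩
  choose c hc h0 h1 using hex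
  exact ⟨E, _, _, _, _, m, c, hc, h0 0 rfl, h1 1 rfl⟩

theorem hinv (hE : EVAL) (hF : FAM) (hS : SWINDLE) : HInv := by
  constructor
  intro M Q B _ _ _ _ _ _ R A _ Y Θ C a b h
  obtain ⟨E, _, _, _, _, m, c, hc, rfl, rfl⟩ := htpy_family hE h
  obtain ⟨w, hw, hq⟩ := hF A E m c hc
  exact (C.cyc_eq _ (hw 0)).trans
    ((hS C (fun t => (toOld (c t)).quad (w t) (hw t)) hq).trans (C.cyc_eq _ (hw 1)).symm)

section Hom

variable {M Q B : Type} [Ring M] [Algebra ℂ M] [Ring Q] [NormedRing B] [NormedAlgebra ℂ B]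
  [CompleteSpace B] {R : Rel M Q B} {A : Type} [NonUnitalCStarAlgebra A] {Y Θ : Type}

theorem hom_cyc (C : Ctx R A Y Θ) (c : P212Z.Cycle A) : C.hom (P212Z.KK.cls c) = C.cyc c :=
  FreeAbelianGroup.lift_apply_of C.cyc c

/-- The local index map on the cycles modulo homotopy. -/
noncomputable def homH (hI : HInv) (C : Ctx R A Y Θ) : KK A →+ K0 B :=
  Pres.lift (fun c => C.hom (P212Z.KK.cls (toOld c)))
    (fun a b h => by rw [hom_cyc, hom_cyc]; exact hI.out C a b h)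
    (fun a b c h => by rw [cls_sum a b c h, map_add])

theorem homH_of (hI : HInv) (C : Ctx R A Y Θ) (c : Kas.Cyc A) :
    homH hI C (Pres.of _ _ c) = C.hom (P212Z.KK.cls (toOld c)) := Pres.lift_of _ _ _ c

theorem comap_of {A' : Type} [NonUnitalCStarAlgebra A'] (φ : A →⋆ₙₐ[ℂ] A') (c : Kas.Cyc A') :
    KK.comap φ (Pres.of _ _ c) = Pres.of _ _ (c.comap φ) := Pres.map_of _ _ _ c

theorem homH_comap (hI : HInv) (C : Ctx R A Y Θ) {A' : Type} [NonUnitalCStarAlgebra A']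
    (φ : A →⋆ₙₐ[ℂ] A') (c : Kas.Cyc A') :
    homH hI C (KK.comap φ (Pres.of _ _ c)) =
      C.hom (P212Z.KK.comap φ (P212Z.KK.cls (toOld c))) := by
  rw [comap_of, homH_of, P212Z.KK.comap_cls]
  rfl

end Hom

section Mu

variable {X A : Type} [MetricSpace X] [BddGeometry X] [NonUnitalCStarAlgebra A]

theorem KX0.hom_ext {G : Type*} [AddCommGroup G] {f g : KX0 X →+ G}
    (h : ∀ r c, f (KX0.cls r c) = g (KX0.cls r c)) : f = g :=
  AddCommGroup.DirectLimit.hom_ext _ fun r => Pres.hom_ext fun c => h r c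

variable [Nonempty X] {i : BX X → A} (hI : HInv) (hi : StarHomOn (IsRoe (gX X)) i)

theorem muH_compat {r s : ℝ} (h : r ≤ s) (x : KK C₀(Rips X r, ℂ)) :
    homH hI (muCtx hi s) (KK.comap (c0Comap (ripsInclCo h)) x) = homH hI (muCtx hi r) x := by
  have h1 : (homH hI (muCtx hi s)).comp (KK.comap (c0Comap (ripsInclCo h))) =
      homH hI (muCtx hi r) := Pres.hom_ext fun c => by
    rw [AddMonoidHom.comp_apply, homH_comap, homH_of]
    exact mu_compat hi h _
  exact DFunLike.congr_fun h1 x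

/-- The assembly map with values in `K_0(A^+)`. -/
noncomputable def muH0 : KX0 X →+ K0 (Unitization ℂ A) :=
  AddCommGroup.DirectLimit.lift _ _ _ (fun r => homH hI (muCtx hi r))
    (fun _ _ h x => muH_compat hI hi h x)

theorem muH0_cls (r : ℝ) (c : Kas.Cyc C₀(Rips X r, ℂ)) :
    muH0 hI hi (KX0.cls r c) = mu0 hi (P212Z.KX0.cls r (toOld c)) := by
  obtain ⟨w, hw⟩ := (toOld c).M.exists_w
  rw [mu0_cls hi r _ hw, ← (muCtx hi r).hom_cls _ hw, ← homH_of hI]
  exact AddCommGroup.DirectLimit.lift_of _ _ _ _ _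

theorem muH0_mem (x : KX0 X) : toKZ _ (muH0 hI hi x) ∈ KCStar A := by
  have h1 : (KZero.map (Unitization.fstHom ℂ A : Unitization ℂ A →+* ℂ)).comp
      ((toKZ _).comp (muH0 hI hi)) = 0 := by
    refine KX0.hom_ext fun r c => ?_
    rw [AddMonoidHom.comp_apply, AddMonoidHom.comp_apply, muH0_cls]
    exact mu0_mem hi _
  exact DFunLike.congr_fun h1 x

/-- The assembly map. -/
noncomputable def muH : KX0 X →+ KCStar A :=
  ((toKZ _).comp (muH0 hI hi)).codRestrict _ (muH0_mem hI hi)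

theorem muH_cls (r : ℝ) (c : Kas.Cyc C₀(Rips X r, ℂ)) :
    muH hI hi (KX0.cls r c) = mu hi (P212Z.KX0.cls r (toOld c)) :=
  Subtype.ext (congrArg (toKZ _) (muH0_cls hI hi r c))

end Mu

theorem directed_KKH (X : Type) [MetricSpace X] [BddGeometry X] :
    DirectedSystem (fun r : ℝ => KK C₀(Rips X r, ℂ))
      (fun _ _ h => KK.comap (c0Comap (ripsInclCo (X := X) h))) where
  map_self i x := by
    have h : KK.comap (c0Comap (ripsInclCo (X := X) (le_refl i))) = AddMonoidHom.id _ :=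
      Pres.hom_ext fun c => comap_of _ c
    exact DFunLike.congr_fun h x
  map_map k j i hij hjk x := by
    have h : (KK.comap (c0Comap (ripsInclCo (X := X) hjk))).comp
        (KK.comap (c0Comap (ripsInclCo (X := X) hij))) =
        KK.comap (c0Comap (ripsInclCo (X := X) (hij.trans hjk))) := Pres.hom_ext fun c => by
      rw [AddMonoidHom.comp_apply, comap_of, comap_of, comap_of]
      rfl
    exact DFunLike.congr_fun h x

theorem indepH (hI : HInv) (τ : Tower) :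
    LinearIndependent ℤ fun α : ℕ → Bool => KX0.cls 2 (ofOld (wit τ (seg α))) := by
  refine linearIndependent_iff'.2 fun T c h => ?_
  have := directed_KKH (XT τ)
  have h1 : AddCommGroup.DirectLimit.of (fun r : ℝ => KK C₀(Rips (XT τ) r, ℂ))
      (fun _ _ h => KK.comap (c0Comap (ripsInclCo h))) 2
      (∑ α ∈ T, c α • Pres.of _ _ (ofOld (wit τ (seg α)))) = 0 := by
    rw [map_sum]
    simp only [map_zsmul]
    exact h
  obtain ⟨s, hs, h2⟩ := AddCommGroup.DirectLimit.of.zero_exact _ _ h1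
  have hs1 : s ≤ ((⌈s⌉₊ : ℕ) : ℝ) := Nat.le_ceil s
  have h3 := (directed_KKH (XT τ)).map_map hs hs1
    (∑ α ∈ T, c α • Pres.of _ _ (ofOld (wit τ (seg α))))
  rw [h2, map_zero] at h3
  have h4 := congrArg (homH hI (lamCtx (XT τ) (⌈s⌉₊ : ℕ))) h3
  rw [map_zero, map_sum, map_sum] at h4
  have h5 : ∀ I, homH hI (lamCtx (XT τ) (⌈s⌉₊ : ℕ)) (KK.comap (c0Comap (ripsInclCo (hs.trans hs1)))
      (Pres.of _ _ (ofOld (wit τ I)))) = -yC τ (hs.trans hs1) (phiB (locSys (XT τ) _)) I :=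
    fun I => (homH_comap hI _ _ _).trans (lam_wit τ I _)
  simp only [map_zsmul, h5, smul_neg, Finset.sum_neg_distrib, zero_eq_neg] at h4
  exact lin_indep ⌈s⌉₊ (hs.trans hs1) (sysB _ _) (phiB (locSys _ _)) (phiB_ev _) (phiB_aug _)
    T c h4

section Main

variable {X H A : Type} [MetricSpace X] [BddGeometry X] [NormedAddCommGroup H]
  [InnerProductSpace ℂ H] [CompleteSpace H] [NonUnitalCStarAlgebra A]
  {b : HilbertBasis (X × ℕ) ℂ H} {i : (H →L[ℂ] H) → A}

theorem isAssembly_congr {μ : KX0 X →+ KC A} {ν : Kas.KX0 X →+ KC A} (h : Kas.IsAssembly b i ν)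
    (e : ∀ r c, μ (KX0.cls r c) = ν (Kas.KX0.cls r c)) : IsAssembly b i μ := by
  intro r E K _ _ _ _ _ _ e' c
  refine ⟨(h r E K e' c).1, fun w p₀ p₁ Φ hw => ?_⟩
  rw [e]
  exact (h r E K e' c).2 w p₀ p₁ Φ hw

theorem IsAssembly.unique {μ μ' : KX0 X →+ KC A} (h : IsAssembly b i μ)
    (h' : IsAssembly b i μ') : μ = μ' := by
  refine KX0.hom_ext fun r c => ?_
  obtain ⟨E, c⟩ := c
  obtain ⟨w, p₀, p₁, Φ, hw⟩ := (h r E _ (stdB ℕ) c).1
  exact ((h r E _ (stdB ℕ) c).2 w p₀ p₁ Φ hw).unique ((h' r E _ (stdB ℕ) c).2 w p₀ p₁ Φ hw)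

end Main

theorem main_of (hI : HInv) : MAIN := by
  obtain ⟨τ⟩ := exists_tower
  refine ⟨XT τ, inferInstance, inferInstance, inferInstance,
    ⟨_, _, _, _, inferInstance, inferInstance, _, _, isMaxRoe_model⟩,
    ⟨_, _, _, _, inferInstance, inferInstance, _, H35.redF (XT τ), H35.exists_reduced (XT τ)⟩,
    fun H A _ _ _ _ b i h => ?_⟩
  have hi := cpl_of (h.elim isRoeCompletion_of_isMaxRoe isRoeCompletion_of_isReducedRoe)
  have h1 : IsAssembly b i (muH hI hi.hom) :=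
    isAssembly_congr (isAssembly_of (isAssembly_mu hi.hom)) fun r c =>
      (muH_cls hI hi.hom r c).trans (congrArg (mu hi.hom) (kxTo_cls r c)).symm
  obtain ⟨ι, hι⟩ := exists_inj_real
  have h3 : LinearIndependent ℤ fun a => KX0.cls 2 (ofOld (wit τ (seg (ι a)))) :=
    (indepH hI τ).comp ι hι
  have h4 : ∀ a, muH hI hi.hom (KX0.cls 2 (ofOld (wit τ (seg (ι a))))) = 0 := fun a =>
    (muH_cls hI hi.hom 2 _).trans (mu_wit τ _ hi)
  refine ⟨_, h1, fun μ' h' => h'.unique h1, not_inj_rat _ _ (h4 0) fun n hn => ?_, _, h3, h4⟩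
  exact linearIndependent_iff'.1 h3 {0} (fun _ => n) (by rw [Finset.sum_singleton]; exact hn) 0
    (Finset.mem_singleton_self _)

theorem main (hE : EVAL) (hF : FAM) (hS : SWINDLE) : MAIN := main_of (hinv hE hF @hS)

end Vale.Agent.P212H
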